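import Crest.Agent.X212.An.Cut
import Crest.Agent.X212.Eqv71.PE
import Crest.Agent.X212.Tmp64.Ode
import Crest.Agent.X212.Eqv71.Cfg
import Crest.Agent.X212.Wz78.Sd

-- ▼ part X212/Cnt93/Path
section

/-!
# X212 / Cnt93, part Path (helper93): intertwiners along a path and on Hardy spaces

* `It u T T'` : `T' u = u T`;  `PR A A' u` : `u` is parallel along the path;
* `trp_spec`, `PR.trp`, `PR.a2`, `it_sym`;
* `LU u` (action on `L²`), `Uh` (action on Hardy spaces), `HI`, `HI.coe`, `HI.tpz`, `HI.frk`.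
-/

set_option autoImplicit false
set_option linter.unusedSectionVars false
noncomputable section
open scoped ContDiff Topology InnerProductSpace ENNReal
open MeasureTheory Set Function

namespace Crest.Agent.X212.Cnt93
open An Eqv71

variable {κ κ' κ'' : Type} [Fintype κ] [Fintype κ'] [Fintype κ'']

/-- `u` intertwines `T` and `T'` -/
def It (u : CL (Eu κ) (Eu κ')) (T : En κ) (T' : En κ') : Prop := T' ∘L u = u ∘L T

namespace It
variable {u : CL (Eu κ) (Eu κ')} {S T : En κ} {S' T' : En κ'}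

theorem app (h : It u T T') (a : Eu κ) : T' (u a) = u (T a) :=
  congrArg (fun X : CL (Eu κ) (Eu κ') => X a) h
theorem of (h : ∀ a, T' (u a) = u (T a)) : It u T T' := ContinuousLinearMap.ext h
theorem one : It u 1 1 := rfl
theorem zero : It u 0 0 := of fun a => by simp
theorem mul (h : It u S S') (k : It u T T') : It u (S * T) (S' * T') :=
  of fun a => by simp only [mul_apply_eq_comp, k.app, h.app]
theorem add (h : It u S S') (k : It u T T') : It u (S + T) (S' + T') :=
  of fun a => by simp only [add_apply, k.app, h.app, map_add]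
theorem sub (h : It u S S') (k : It u T T') : It u (S - T) (S' - T') :=
  of fun a => by simp only [sub_apply, k.app, h.app, map_sub]
theorem neg (h : It u S S') : It u (-S) (-S') :=
  of fun a => by simp only [neg_apply, h.app, map_neg]
theorem smul (r : ℝ) (h : It u S S') : It u (r • S) (r • S') :=
  of fun a => by simp only [smul_apply, h.app, map_smul]
theorem sum {α : Type} (s : Finset α) {T : α → En κ} {T' : α → En κ'}
    (h : ∀ a, It u (T a) (T' a)) : It u (∑ a ∈ s, T a) (∑ a ∈ s, T' a) :=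
  of fun v => by simp only [_root_.sum_apply, (h _).app, map_sum]
theorem lsum {α β : Type} {R : α → β → Prop} {l : List α} {l' : List β} (hl : List.Forall₂ R l l')
    {T : α → En κ} {T' : β → En κ'} (h : ∀ a ∈ l, ∀ b ∈ l', R a b → It u (T a) (T' b)) :
    It u (l.map T).sum (l'.map T').sum := by
  induction hl with
  | nil => exact zero
  | cons h1 _ ih =>
    simp only [List.map_cons, List.sum_cons]
    exact (h _ (by simp) _ (by simp) h1).add
      (ih fun a ha b hb => h a (by simp [ha]) b (by simp [hb]))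
theorem comp {w : CL (Eu κ') (Eu κ'')} {T'' : En κ''} (h : It u T T') (k : It w T' T'') :
    It (w ∘L u) T T'' := of fun a => by simp only [ContinuousLinearMap.comp_apply, k.app, h.app]
theorem csE {J : En κ} {J' : En κ'} (h : It u J J') (c : ℂ) : It u (csE J c) (csE J' c) :=
  (one.smul _).add (h.smul _)
theorem comm {S T : En κ} : It S T T ↔ S * T = T * S := eq_comm

/-- conjugation formula -/
theorem eq_conj (h : It u T T') {p' : En κ'} (uu : u ∘L trn u = p') (hp : T' * p' = T') :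
    T' = u ∘L T ∘L trn u := by
  rw [← ContinuousLinearMap.comp_assoc, ← h, ContinuousLinearMap.comp_assoc, uu]
  exact hp.symm

theorem eq_conj' (h : It u T T') {p : En κ} (uu : trn u ∘L u = p) (hp : p * T = T) :
    T = trn u ∘L T' ∘L u := by
  rw [h, ← ContinuousLinearMap.comp_assoc, uu]
  exact hp.symm

theorem norm_hs [DecidableEq κ] [DecidableEq κ'] (h : It u T T') {p : En κ} {p' : En κ'}
    (uu : trn u ∘L u = p) (uu' : u ∘L trn u = p') (h1 : p * T = T) (h2 : T * p = T)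
    (h3 : T' * p' = T') : ‖hsL T'‖ = ‖hsL T‖ := by
  have e : trn p = p := by rw [← uu, trn_comp, trn_trn]
  rw [h.eq_conj uu' h3, ← cj_hsL, norm_eq_sqrt_real_inner, inner_cj, cj_cj, uu, cj_hsL, e,
    show p ∘L T ∘L p = T from (congrArg (p * ·) h2).trans h1, ← norm_eq_sqrt_real_inner]

end It

/-! ### paths -/

/-- `u' = u A - A' u` -/
def PR (A : ℝ → En κ) (A' : ℝ → En κ') (u : ℝ → CL (Eu κ) (Eu κ')) : Prop :=
  ∀ s, HasDerivAt u (u s ∘L A s - A' s ∘L u s) s

/-- the first correction -/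
def a1 (A p : ℝ → En κ) (s : ℝ) : En κ := A s + ((2 : ℝ) • p s - 1) * cvd A p s

/-- the second correction -/
def a2 (A p q : ℝ → En κ) (s : ℝ) : En κ :=
  a1 A p s - (1 / 2 : ℝ) • (q s * cvd (a1 A p) q s)

variable {A p q T : ℝ → En κ} {A' p' q' T' : ℝ → En κ'} {u : ℝ → CL (Eu κ) (Eu κ')}

theorem cvd_neg (s : ℝ) : cvd A (-T) s = -cvd A T s := by
  simp only [cvd, deriv.neg, Pi.neg_apply]
  noncomm_ring

theorem a2_neg : a2 A p (-q) = a2 A p q := funext fun s => by
  rw [a2, a2, cvd_neg, Pi.neg_apply, neg_mul_neg]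

theorem cont_cvd (hA : Continuous A) (hT : ContDiff ℝ 1 T) : Continuous (cvd A T) :=
  (hT.continuous_deriv le_rfl).add ((hA.mul hT.continuous).sub (hT.continuous.mul hA))

theorem cont_a1 (hA : Continuous A) (hp : ContDiff ℝ 1 p) : Continuous (a1 A p) :=
  hA.add (((hp.continuous.const_smul (2 : ℝ)).sub continuous_const).mul (cont_cvd hA hp))

theorem cont_a2 (hA : Continuous A) (hp : ContDiff ℝ 1 p) (hq : ContDiff ℝ 1 q) :
    Continuous (a2 A p q) :=
  (cont_a1 hA hp).sub ((hq.continuous.mul (cont_cvd (cont_a1 hA hp) hq)).const_smul (1 / 2 : ℝ))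

theorem trp_spec (hA : Continuous A) :
    trp A 0 = 1 ∧ ∀ s, HasDerivAt (trp A) (-(A s * trp A s)) s := by
  have h : ∃ P : ℝ → En κ, P 0 = 1 ∧ ∀ s, HasDerivAt P (-(A s * P s)) s := by
    obtain ⟨S, -, h1, h2⟩ := R202.LinODE.exists_flow (X := Unit)
      (A := fun _ t => -ContinuousLinearMap.mul ℝ (En κ) (A t))
      (((ContinuousLinearMap.mul ℝ (En κ)).continuous.comp (hA.comp continuous_snd)).neg) 0
      (x0 := fun _ => 1) continuous_const
    exact ⟨S (), h1 (), h2 ()⟩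
  rw [trp, dif_pos h]
  exact h.choose_spec

namespace PR
variable (h : PR A A' u)
include h

theorem cvd (hT : Differentiable ℝ T) (hT' : Differentiable ℝ T') (e : ∀ s, It (u s) (T s) (T' s))
    (s : ℝ) : It (u s) (cvd A T s) (cvd A' T' s) := by
  have k := ((hT' s).hasDerivAt.clm_comp (h s)).unique
    (((h s).clm_comp (hT s).hasDerivAt).congr_of_eventuallyEq (.of_forall fun t => e t))
  refine It.of fun a => ?_
  have k2 := congrArg (fun X : CL (Eu κ) (Eu κ') => X a) k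
  simp only [add_apply, sub_apply, ContinuousLinearMap.comp_apply, map_sub, (e s).app] at k2
  simp only [An.cvd, add_apply, sub_apply, mul_apply_eq_comp, map_sub, map_add, (e s).app]
  rw [eq_sub_of_add_eq k2]
  abel

theorem add {S : ℝ → En κ} {S' : ℝ → En κ'} (e : ∀ s, It (u s) (S s) (S' s)) :
    PR (fun s => A s + S s) (fun s => A' s + S' s) u := fun s => (h s).congr_deriv (by
  rw [ContinuousLinearMap.comp_add, ContinuousLinearMap.add_comp, e s]
  abel)

theorem a1 (hp : Differentiable ℝ p) (hp' : Differentiable ℝ p') (e : ∀ s, It (u s) (p s) (p' s)) :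
    PR (a1 A p) (a1 A' p') u :=
  h.add fun s => (((e s).smul _).sub It.one).mul (h.cvd hp hp' e s)

theorem a2 (hp : Differentiable ℝ p) (hp' : Differentiable ℝ p') (e : ∀ s, It (u s) (p s) (p' s))
    (hq : Differentiable ℝ q) (hq' : Differentiable ℝ q') (f : ∀ s, It (u s) (q s) (q' s)) :
    PR (a2 A p q) (a2 A' p' q') u := by
  have k := (h.a1 hp hp' e).add fun s =>
    (((f s).mul ((h.a1 hp hp' e).cvd hq hq' f s)).smul (1 / 2)).neg
  simp only [← sub_eq_add_neg] at k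
  exact k

/-- **transport is natural** -/
theorem trp (hA : Continuous A) (hA' : Continuous A') (s : ℝ) :
    trp A' s ∘L u 0 = u s ∘L trp A s := by
  refine Tmp64.lin_unique
    (L := fun t => -ContinuousLinearMap.compL ℝ (Eu κ) (Eu κ') (Eu κ') (A' t))
    (((ContinuousLinearMap.compL ℝ (Eu κ) (Eu κ') (Eu κ')).continuous.comp hA').neg)
    (f := fun t => An.trp A' t ∘L u 0) (g := fun t => u t ∘L An.trp A t) (fun t => ?_) (fun t => ?_)
    (t0 := 0) (by rw [(trp_spec hA).1, (trp_spec hA').1]; rfl) s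
  · exact (((trp_spec hA').2 t).clm_comp (hasDerivAt_const t (u 0))).congr_deriv
      (ContinuousLinearMap.ext fun a => by simp)
  · exact ((h t).clm_comp ((trp_spec hA).2 t)).congr_deriv
      (ContinuousLinearMap.ext fun a => by simp [← sub_eq_add_neg])

end PR

/-- the transposed transports -/
theorem trn_nat {P : En κ} {P' : En κ'} {u0 u1 : CL (Eu κ) (Eu κ')} (h : P' ∘L u0 = u1 ∘L P)
    {p0 p1 : En κ} {p0' p1' : En κ'} (a0 : trn u0 ∘L u0 = p0) (a1 : trn u1 ∘L u1 = p1)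
    (b0 : u0 ∘L trn u0 = p0') (b1 : u1 ∘L trn u1 = p1') (c0 : u0 ∘L p0 = u0) (c1 : p1' ∘L u1 = u1)
    (k : P ∘L p0 = p1 ∘L P) (k' : P' ∘L p0' = p1' ∘L P') : trn P' ∘L u1 = u0 ∘L trn P := by
  have s0 : trn p0 = p0 := by rw [← a0, trn_comp, trn_trn]
  have s1 : trn p1 = p1 := by rw [← a1, trn_comp, trn_trn]
  have t0 : trn p0' = p0' := by rw [← b0, trn_comp, trn_trn]
  have t1 : trn p1' = p1' := by rw [← b1, trn_comp, trn_trn]
  have h2 := congrArg trn h
  have k2 := congrArg trn k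
  have k3 := congrArg trn k'
  rw [trn_comp, trn_comp] at h2 k2 k3
  rw [s0, s1] at k2
  rw [t0, t1] at k3
  calc trn P' ∘L u1 = (trn P' ∘L p1') ∘L u1 := by rw [ContinuousLinearMap.comp_assoc, c1]
    _ = u0 ∘L (trn u0 ∘L trn P') ∘L u1 := by rw [← k3, ← b0]; rfl
    _ = u0 ∘L trn P ∘L p1 := by rw [h2, ← a1]; rfl
    _ = u0 ∘L trn P := by rw [← k2, ← ContinuousLinearMap.comp_assoc, c0]

/-! ### Hardy spaces -/

/-- pointwise action on `L²` -/
abbrev LU (u : CL (Eu κ) (Eu κ')) : CL (L2c κ) (L2c κ') := u.compLpL 2 μc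

theorem coe_mulC (g : C(UnitAddCircle, En κ)) (f : L2c κ) :
    mulC g f =ᵐ[μc] fun θ => g θ (f θ) := by
  filter_upwards [(ContinuousLinearMap.id ℝ (En κ)).coeFn_holder (r := 2)
    (ContinuousMap.toLp ∞ μc ℝ g) f, ContinuousMap.coeFn_toLp (p := ∞) (μ := μc) (𝕜 := ℝ) g]
    with θ h1 h2
  exact h1.trans (by rw [h2]; rfl)

theorem LU_LU (u : CL (Eu κ) (Eu κ')) (w : CL (Eu κ') (Eu κ'')) (f : L2c κ) :
    LU w (LU u f) = LU (w ∘L u) f := by
  refine Lp.ext ?_
  filter_upwards [w.coeFn_compLpL (LU u f), u.coeFn_compLpL f, (w ∘L u).coeFn_compLpL f]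
    with θ h1 h2 h3
  rw [h1, h2, h3]; rfl

theorem inner_LU (u : CL (Eu κ) (Eu κ')) (f : L2c κ) (g : L2c κ') :
    ⟪LU u f, g⟫_ℝ = ⟪f, LU (trn u) g⟫_ℝ := by
  rw [L2.inner_def, L2.inner_def]
  refine integral_congr_ae ?_
  filter_upwards [u.coeFn_compLpL f, (trn u).coeFn_compLpL g] with θ h1 h2
  rw [h1, h2, inner_trn']

theorem LU_const (u : CL (Eu κ) (Eu κ')) (a : Eu κ) :
    LU u (Lp.constL 2 μc ℝ a) = Lp.constL 2 μc ℝ (u a) := by
  refine Lp.ext ?_
  filter_upwards [u.coeFn_compLpL (Lp.constL 2 μc ℝ a), Lp.coeFn_const (p := 2) (μ := μc) (c := a),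
    Lp.coeFn_const (p := 2) (μ := μc) (c := u a)] with θ h1 h2 h3
  exact h1.trans ((congrArg u h2).trans h3.symm)

theorem mulC_LU {u : CL (Eu κ) (Eu κ')} {g : C(UnitAddCircle, En κ)} {g' : C(UnitAddCircle, En κ')}
    (h : ∀ θ, It u (g θ) (g' θ)) (f : L2c κ) : mulC g' (LU u f) = LU u (mulC g f) := by
  refine Lp.ext ?_
  filter_upwards [coe_mulC g' (LU u f), u.coeFn_compLpL f, u.coeFn_compLpL (mulC g f),
    coe_mulC g f] with θ h1 h2 h3 h4
  rw [h1, h2, h3, h4, (h θ).app]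

theorem it_cm {u : CL (Eu κ) (Eu κ')} {g : UnitAddCircle → En κ} {g' : UnitAddCircle → En κ'}
    (h : ∀ θ, It u (g θ) (g' θ)) (hc : Continuous g ↔ Continuous g') (θ : UnitAddCircle) :
    It u (cm g θ) (cm g' θ) := by
  by_cases k : Continuous g
  · rw [cm, cm, dif_pos k, dif_pos (hc.1 k)]
    exact h θ
  · rw [cm, cm, dif_neg k, dif_neg fun k' => k (hc.2 k')]
    exact It.zero

theorem cont_csE (J : En κ) (n : ℤ) : Continuous fun θ : UnitAddCircle => csE J (fourier n θ) :=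
  ((Complex.continuous_re.comp (fourier n).continuous).smul continuous_const).add
    ((Complex.continuous_im.comp (fourier n).continuous).smul continuous_const)

theorem md_nat {u : CL (Eu κ) (Eu κ')} {J : En κ} {J' : En κ'} (h : It u J J') (n : ℤ) (a : Eu κ) :
    md J' n (u a) = LU u (md J n a) := by
  rw [md, md, ContinuousLinearMap.comp_apply, ContinuousLinearMap.comp_apply, ← LU_const,
    mulC_LU (it_cm (fun θ => h.csE _) (iff_of_true (cont_csE J n) (cont_csE J' n)))]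

theorem fc_nat {u : CL (Eu κ) (Eu κ')} {J : En κ} {J' : En κ'} (h : It (trn u) J' J) (n : ℤ)
    (f : L2c κ) : fc J' n (LU u f) = u (fc J n f) :=
  ext_inner_left ℝ fun b => by
    rw [fc, fc, ContinuousLinearMap.adjoint_inner_right, ← inner_trn,
      ContinuousLinearMap.adjoint_inner_right, md_nat h, inner_LU, trn_trn]

theorem LU_mem {u : CL (Eu κ) (Eu κ')} {J p : En κ} {J' p' : En κ'} (h : It u J J') (k : It u p p')
    {f : L2c κ} (hf : f ∈ Hd J p) : LU u f ∈ Hd J' p' := by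
  refine (Submodule.topologicalClosure_minimal (t := (Hd J' p').comap (LU u : L2c κ →ₗ[ℝ] L2c κ'))
    _ (Submodule.span_le.2 ?_)
    ((Submodule.isClosed_topologicalClosure _).preimage (LU u).continuous)) hf
  rintro _ ⟨_, ⟨n, rfl⟩, a, ha, rfl⟩
  refine Submodule.le_topologicalClosure _ (Submodule.subset_span (mem_iUnion.2 ⟨n, u a, ?_, ?_⟩))
  · exact (k.app a).trans (congrArg u ha)
  · exact md_nat h n a

/-- the action on Hardy spaces -/
def Uh (J p : En κ) (J' p' : En κ') (u : CL (Eu κ) (Eu κ')) : CL (Hd J p) (Hd J' p') :=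
  (Hd J' p').orthogonalProjectionOnto ∘L LU u ∘L (Hd J p).subtypeL

/-- `u` and its transpose intertwine the data of two Hardy spaces -/
structure HI (J p : En κ) (J' p' : En κ') (u : CL (Eu κ) (Eu κ')) : Prop where
  hJ : It u J J'
  hp : It u p p'
  tJ : It (trn u) J' J
  tp : It (trn u) p' p

namespace HI
variable {J p : En κ} {J' p' : En κ'} {u : CL (Eu κ) (Eu κ')} (h : HI J p J' p' u)
include h

theorem coe (ψ : Hd J p) : (Uh J p J' p' u ψ : L2c κ') = LU u ψ :=
  Submodule.starProjection_eq_self_iff.2 (LU_mem h.hJ h.hp ψ.2)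

theorem proj (f : L2c κ) : (Hd J' p').starProjection (LU u f) = LU u ((Hd J p).starProjection f) := by
  refine Submodule.eq_starProjection_of_mem_of_inner_eq_zero
    (LU_mem h.hJ h.hp ((Hd J p).starProjection_apply_mem f)) fun b hb => ?_
  rw [← map_sub, inner_LU]
  exact (Hd J p).starProjection_inner_eq_zero f _ (LU_mem h.tJ h.tp hb)

theorem cpr {T : CL (L2c κ) (L2c κ)} {T' : CL (L2c κ') (L2c κ')}
    (e : ∀ f, T' (LU u f) = LU u (T f)) (ψ : Hd J p) :
    cpr J' p' T' (Uh J p J' p' u ψ) = Uh J p J' p' u (cpr J p T ψ) := by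
  refine Subtype.ext ?_
  rw [h.coe]
  show (Hd J' p').starProjection (T' (Uh J p J' p' u ψ : L2c κ')) = _
  rw [h.coe, e, h.proj]
  rfl

theorem tpz {g : UnitAddCircle → En κ} {g' : UnitAddCircle → En κ'} (e : ∀ θ, It u (g θ) (g' θ))
    (hc : Continuous g ↔ Continuous g') (ψ : Hd J p) :
    tpz J' p' g' (Uh J p J' p' u ψ) = Uh J p J' p' u (tpz J p g ψ) :=
  h.cpr (mulC_LU (it_cm e hc)) ψ

theorem frk {X : En κ} {X' : En κ'} (e : It u X X') (m n : ℕ) (ψ : Hd J p) :
    frk J' p' m n X' (Uh J p J' p' u ψ) = Uh J p J' p' u (frk J p m n X ψ) :=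
  h.cpr (fun f => by
    simp only [ContinuousLinearMap.comp_apply, fc_nat h.tJ, e.app, md_nat h.hJ]) ψ

end HI

theorem LU_self {J p w : En κ} (hJ : It w J J) (hw : ∀ a, p a = a → w a = a) {f : L2c κ}
    (hf : f ∈ Hd J p) : LU w f = f := by
  refine sub_eq_zero.1 (Submodule.topologicalClosure_minimal (t := (LU w - 1).ker)
    _ (Submodule.span_le.2 ?_) (LU w - 1).isClosed_ker hf)
  rintro _ ⟨_, ⟨n, rfl⟩, a, ha, rfl⟩
  exact sub_eq_zero.2 ((md_nat hJ n a).symm.trans (by rw [hw a ha]; rfl))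

theorem HI.norm {J p : En κ} {J' p' : En κ'} {u : CL (Eu κ) (Eu κ')} (h : HI J p J' p' u)
    (hu : ∀ a, p a = a → trn u (u a) = a) (ψ : Hd J p) : ‖Uh J p J' p' u ψ‖ = ‖ψ‖ := by
  rw [Submodule.coe_norm, h.coe, norm_eq_sqrt_real_inner, inner_LU, LU_LU,
    LU_self (h.hJ.comp h.tJ) hu ψ.2, ← norm_eq_sqrt_real_inner, Submodule.coe_norm]

end Crest.Agent.X212.Cnt93
end
end

-- ▼ part X212/Cnt93/Pt

/-!
# X212 / Cnt93, part Pt (helper93): the pointwise data of a cut are smooth and natural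

* `RT` (rotation of two-tensors), `dd_rel`, `c2_it`;
* `sa_pi`, `sa_qu` (smooth along the cut), `p_pi`, `pi_p`, `J_pi`, `J_qu`;
* `vl` (velocity components), `hasDerivAt_comp`, `contDiff_vl`, `vl_rel`.
-/

set_option autoImplicit false
set_option linter.unusedSectionVars false
noncomputable section
open scoped Manifold ContDiff Topology InnerProductSpace
open MeasureTheory Set Function Finset

namespace Crest.Agent.X212.Cnt93
open An Eqv71 Wz78 Crest.Agent.R208 Crest.Agent.R208.F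

section RT
variable {ι ι' : Type} [Fintype ι] [Fintype ι'] {U : ι' → ι → ℝ}
  {w z : Eu (ι × ι)} {w' z' : Eu (ι' × ι')}

/-- rotation of two-tensors -/
def RT (U : ι' → ι → ℝ) (w : Eu (ι × ι)) (w' : Eu (ι' × ι')) : Prop :=
  ∀ t, w' t = ∑ s, sq2 U t s * w s

theorem RT.zero : RT U 0 0 := fun _ => by simp
theorem RT.add (h : RT U w w') (k : RT U z z') : RT U (w + z) (w' + z') := fun t => by
  simp only [PiLp.add_apply, h t, k t, mul_add, sum_add_distrib]
theorem RT.smul (r : ℝ) (h : RT U w w') : RT U (r • w) (r • w') := fun t => by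
  simp only [PiLp.smul_apply, h t, smul_eq_mul, mul_sum, mul_left_comm r]
theorem RT.lsum {α β : Type} {R : α → β → Prop} {l : List α} {l' : List β}
    (hl : List.Forall₂ R l l') {T : α → Eu (ι × ι)} {T' : β → Eu (ι' × ι')}
    (h : ∀ a ∈ l, ∀ b ∈ l', R a b → RT U (T a) (T' b)) : RT U (l.map T).sum (l'.map T').sum := by
  induction hl with
  | nil => exact RT.zero
  | cons h1 _ ih =>
    simp only [List.map_cons, List.sum_cons]
    exact (h _ (by simp) _ (by simp) h1).add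
      (ih fun a ha b hb => h a (by simp [ha]) b (by simp [hb]))

theorem RT.norm (h : RT U w w') {P : ι → ι → ℝ} (UU : ∀ a a', ∑ b, U b a * U b a' = P a a')
    (h0 : RT P w w) : ‖w'‖ = ‖w‖ := by
  have k : ∀ s r, ∑ t, sq2 U t s * sq2 U t r = sq2 P s r := fun s r => by
    have := sq2_mul (fun a b => U b a) U s r
    simp only [UU] at this
    exact this
  rw [EuclideanSpace.norm_eq, EuclideanSpace.norm_eq]
  congr 1
  simp only [Real.norm_eq_abs, sq, abs_mul_abs_self]
  calc ∑ t, w' t * w' t = ∑ t, ∑ s, ∑ r, sq2 U t s * sq2 U t r * (w s * w r) := by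
        simp only [h _, sum_mul_sum]
        exact sum_congr rfl fun _ _ => sum_congr rfl fun _ _ => sum_congr rfl fun _ _ => by ring
    _ = ∑ s, ∑ r, sq2 P s r * (w s * w r) := by
        rw [sum_comm]
        exact sum_congr rfl fun s _ => by rw [sum_comm]; simp only [← sum_mul, k]
    _ = ∑ s, w s * w s := sum_congr rfl fun s _ => by
        conv_rhs => rw [h0 s]
        rw [← h0 s]
        conv_rhs => enter [2]; rw [h0 s]
        rw [mul_sum]
        exact sum_congr rfl fun _ _ => by ring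

end RT

variable {E : Type} [NormedAddCommGroup E] [NormedSpace ℝ E] [FiniteDimensional ℝ E]
  [MeasurableSpace E] [BorelSpace E]
  {HM : Type} [TopologicalSpace HM] {I : ModelWithCorners ℝ E HM} [I.Boundaryless]
  {M : Type} [TopologicalSpace M] [ChartedSpace HM M] [IsManifold I ∞ M]
  [MeasurableSpace M] [BorelSpace M] [SecondCountableTopology M]
  {ι : Type} [Fintype ι] {lam : Type} [Fintype lam]
  {E' : Type} [NormedAddCommGroup E'] [NormedSpace ℝ E'] [FiniteDimensional ℝ E']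
  [MeasurableSpace E'] [BorelSpace E']
  {HM' : Type} [TopologicalSpace HM'] {I' : ModelWithCorners ℝ E' HM'} [I'.Boundaryless]
  {M' : Type} [TopologicalSpace M'] [ChartedSpace HM' M'] [IsManifold I' ∞ M']
  [MeasurableSpace M'] [BorelSpace M'] [SecondCountableTopology M']
  {ι' : Type} [Fintype ι'] {lam' : Type} [Fintype lam']
  {B : Base M ι lam} {B' : Base M' ι' lam'} {F : Fr I M ι} {F' : Fr I' M' ι'}
  {m : Md M ι lam} {m' : Md M' ι' lam'} {x : M} {x' : M'}

section pt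
variable {U : ι' → ι → ℝ} {v : CL (Eu lam) (Eu lam')} {u : CL m.V m'.V}

theorem dd_rel (e : BE B x B' x' U v) (hB : B.OK I) (hB' : B'.OK I') {g h : M → ℝ} {g' h' : M' → ℝ}
    (hg : ∀ b, F'.D b g' x' = ∑ a, U b a • F.D a g x)
    (hh : ∀ b, F'.D b h' x' = ∑ a, U b a • F.D a h x) :
    RT U (B.dd F g h x) (B'.dd F' g' h' x') := fun t => by
  have k : ∀ r : ι' × ι', F'.D r.1 g' x' * F'.D r.2 h' x'
      = ∑ s : ι × ι, sq2 U r s * (F.D s.1 g x * F.D s.2 h x) := fun r => by
    rw [hg, hh, sum_mul_sum, Fintype.sum_prod_type]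
    exact sum_congr rfl fun _ _ => sum_congr rfl fun _ _ => by simp only [sq2, smul_eq_mul]; ring
  simp only [Base.dd, k, mul_sum, ← mul_assoc]
  rw [sum_comm, sum_comm (f := fun s r => sq2 U t s * B.sd x s r * F.D r.1 g x * F.D r.2 h x)]
  exact sum_congr rfl fun s _ => by simp only [← sum_mul, e.sd hB hB']

theorem c2_it (e : ME m x m' x' U v u) (g : BE B x B' x' U v) (h : m.OK I B) {w : Eu (ι × ι)}
    {w' : Eu (ι' × ι')} (k : RT U w w') : It u (m.c2 x w) (m'.c2 x' w') := by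
  have k1 : ∀ a, It u (m.ρ a x) (∑ b, U b a • m'.ρ b x') := fun a => e.ρ' g h a
  have k2 : m'.c2 x' w' = ∑ s : ι × ι, w s •
      ((∑ b, U b s.1 • m'.ρ b x') * ∑ b, U b s.2 • m'.ρ b x') := by
    simp only [Md.c2, k _, sum_smul, sum_mul_sum, smul_mul_smul_comm, smul_sum, smul_smul]
    rw [sum_comm]
    exact sum_congr rfl fun s _ => by
      rw [Fintype.sum_prod_type]
      simp only [sq2, mul_comm]
  rw [k2]
  exact It.sum _ fun s => ((k1 _).mul (k1 _)).smul _

end pt

section alg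
variable (k : Cut M lam) (H : m.OK I B)
include H

theorem p_c2 (w : Eu (ι × ι)) : m.p x * m.c2 x w = m.c2 x w := by
  simp only [Md.c2, mul_sum, mul_smul_comm, ← mul_assoc, (H.cl x).pl]

theorem c2_p (w : Eu (ι × ι)) : m.c2 x w * m.p x = m.c2 x w := by
  simp only [Md.c2, sum_mul, smul_mul_assoc, mul_assoc, (H.cl x).pr]

theorem J_c2 (w : Eu (ι × ι)) : It m.J (m.c2 x w) (m.c2 x w) :=
  It.sum _ fun _ => ((It.comm.2 (H.Jρ _ x)).mul (It.comm.2 (H.Jρ _ x))).smul _

theorem p_pi : m.p x * k.pi B F m x = k.pi B F m x := by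
  rw [Cut.pi, mul_smul_comm, mul_sub, Wz78.p_pp H, mul_smul_comm, ← mul_assoc, ← H.Jp, mul_assoc,
    p_c2 H]

theorem pi_p : k.pi B F m x * m.p x = k.pi B F m x := by
  rw [Cut.pi, smul_mul_assoc, sub_mul, pp_p H, smul_mul_assoc, mul_assoc, c2_p H]

theorem J_pi : It m.J (k.pi B F m x) (k.pi B F m x) :=
  ((It.comm.2 (J_pp H x)).sub (((It.comm.2 rfl).mul (J_c2 H _)).smul _)).smul _

theorem p_q0 : m.p x * k.q0 B F m x = k.q0 B F m x := by
  rw [Cut.q0, ← mul_assoc, ← mul_assoc, p_pi k H]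

theorem q0_p : k.q0 B F m x * m.p x = k.q0 B F m x := by rw [Cut.q0, mul_assoc, pi_p k H]

theorem J_q0 : It m.J (-k.q0 B F m x) (k.q0 B F m x) := by
  have h1 : ∀ l : List ((M → Eu lam) × (M → ℝ) × (M → ℝ)), It m.J
      (-(l.map fun t => m.c2 x (B.dd F t.2.1 t.2.2 x) * m.j x (t.1 x)).sum)
      (l.map fun t => m.c2 x (B.dd F t.2.1 t.2.2 x) * m.j x (t.1 x)).sum := fun l => by
    induction l with
    | nil => simpa using It.zero
    | cons t l ih =>
      have h2 : It m.J (-m.j x (t.1 x)) (m.j x (t.1 x)) := (H.jJ x _).trans (mul_neg _ _).symm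
      have h3 := ((J_c2 H (x := x) (B.dd F t.2.1 t.2.2 x)).mul h2).add ih
      rwa [mul_neg, ← neg_add] at h3
  have h3 := ((J_pi k H (F := F) (x := x)).mul (h1 k.e)).mul (J_pi k H (F := F) (x := x))
  rwa [mul_neg, neg_mul] at h3

theorem J_qu : It m.J (-k.qu B F m x) (k.qu B F m x) := by
  have := (J_q0 k H (F := F) (x := x)).smul (2 / ‖hsL (k.q0 B F m x)‖)
  rwa [smul_neg] at this

end alg

section sm
variable {k : Cut M lam}

theorem sa_lsum {α V : Type} [NormedAddCommGroup V] [NormedSpace ℝ V] {l : List α} {T : α → M → V}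
    (h : ∀ a ∈ l, SA I (T a) x) : SA I (fun y => (l.map fun a => T a y).sum) x := by
  induction l with
  | nil => exact contMDiffAt_const
  | cons a l ih =>
    simp only [List.map_cons, List.sum_cons]
    exact (h a (by simp)).add (ih fun b hb => h b (by simp [hb]))

theorem sa_norm {V : Type} [NormedAddCommGroup V] [InnerProductSpace ℝ V] {f : M → V}
    (h : SA I f x) (h0 : f x ≠ 0) : SA I (fun y => ‖f y‖⁻¹) x :=
  ((contDiffAt_norm ℝ h0).inv (norm_ne_zero_iff.2 h0)).comp_contMDiffAt h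

theorem sa_dd (hB : B.OK I) {g h : M → ℝ} (hg : Sm I g) (hh : Sm I h) : SA I (B.dd F g h) x := by
  refine (PiLp.continuousLinearEquiv 2 ℝ fun _ : ι × ι => ℝ).symm.contDiff.contDiffAt.comp_contMDiffAt
    (f := fun y s => ∑ t, B.sd y s t * (F.D t.1 g y * F.D t.2 h y)) (contMDiffAt_pi_space.2 fun s =>
      SA.sum _ fun t _ => SA.mul ?_ (SA.mul (F.sm_D hg _ x) (F.sm_D hh _ x)))
  exact (((((hB.sP _ _ x).mul (hB.sP _ _ x)).sub ((hB.sP _ _ x).mul (hB.sP _ _ x))).div_const
    2).add ((hB.so _ _ _ _ x).div_const 2)).div_const 2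

theorem sa_c2 (H : m.OK I B) {w : M → Eu (ι × ι)} (hw : SA I w x) :
    SA I (fun y => m.c2 y (w y)) x :=
  SA.sum _ fun s _ => SA.smul (SA.clm (EuclideanSpace.proj s) hw) (SA.mul (H.sρ _ x) (H.sρ _ x))

variable (hB : B.OK I) (hk : k.OK B F) (H : m.OK I B)
include hB hk

theorem sa_om : SA I (k.om B F) x := sa_lsum fun t ht =>
  let ⟨⟨_, h1, _⟩, h2, h3⟩ := hk.sw t ht
  SA.smul (h1 x) (sa_dd hB h2.1 h3.1)

include H

theorem sa_pi (h : k.om B F x ≠ 0) : SA I (k.pi B F m) x := by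
  refine SA.smul contMDiffAt_const ((sm_pp H hB x).sub (SA.smul ?_
    (SA.mul contMDiffAt_const (sa_c2 H (sa_om hB hk)))))
  simp only [mul_inv]
  exact contMDiffAt_const.mul (sa_norm (sa_om hB hk) h)

theorem sa_q0 (h : k.om B F x ≠ 0) : SA I (k.q0 B F m) x :=
  SA.mul (SA.mul (sa_pi hB hk H h) (sa_lsum fun t ht =>
    let ⟨⟨_, h1, _⟩, h2, h3⟩ := hk.se t ht
    SA.mul (sa_c2 H (sa_dd hB h2.1 h3.1)) (SA.app (H.sj x) (h1 x)))) (sa_pi hB hk H h)

theorem sa_qu (h : k.om B F x ≠ 0) (h' : k.q0 B F m x ≠ 0) : SA I (k.qu B F m) x := by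
  refine SA.smul ?_ (sa_q0 hB hk H h)
  simp only [div_eq_mul_inv]
  exact contMDiffAt_const.mul (sa_norm (SA.clm hsL (sa_q0 hB hk H h))
    fun e => h' (by rw [← Eqv71.opL_hsL (k.q0 B F m x), e, map_zero]))

omit hB H in
theorem sm_γ (θ : UnitAddCircle) : ContMDiff 𝓘(ℝ, ℝ) I ∞ (k.γ θ) := by
  obtain ⟨t, rfl⟩ := QuotientAddGroup.mk_surjective θ
  exact hk.sm.comp (contDiff_const.prodMk contDiff_id : ContDiff ℝ ∞ fun s : ℝ => (t, s)).contMDiff

theorem cd_pi (θ : UnitAddCircle) : ContDiff ℝ ∞ fun s => k.pi B F m (k.γ θ s) :=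
  contMDiff_iff_contDiff.1 fun s => (sa_pi hB hk H (hk.om θ s)).comp s (sm_γ hk θ s)

theorem cd_qu (θ : UnitAddCircle) : ContDiff ℝ ∞ fun s => k.qu B F m (k.γ θ s) :=
  contMDiff_iff_contDiff.1 fun s => (sa_qu hB hk H (hk.om θ s) (hk.q0 m H θ s)).comp s (sm_γ hk θ s)

end sm

/-! ### velocity -/

section vel
variable {c : ℝ → M}

variable (F) in
/-- frame components of the velocity of a curve -/
def vl (c : ℝ → M) (s : ℝ) (a : ι) : ℝ := Num57.tl F (c s) a (mfderiv 𝓘(ℝ, ℝ) I c s (1 : ℝ))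

theorem vl_sum (s : ℝ) : ∑ a, vl F c s a • F.e a (c s) = mfderiv 𝓘(ℝ, ℝ) I c s (1 : ℝ) :=
  (Num57.cf F (c s)).ex _

theorem hasDerivAt_comp {V : Type} [NormedAddCommGroup V] [NormedSpace ℝ V] {f : M → V} {s : ℝ}
    (hc : ContMDiffAt 𝓘(ℝ, ℝ) I ∞ c s) (hf : SA I f (c s)) :
    HasDerivAt (fun t => f (c t)) (∑ a, vl F c s a • F.D a f (c s)) s := by
  have h1 := hc.mdifferentiableAt (by simp)
  have h2 : HasFDerivAt (𝕜 := ℝ) (E := ℝ) (F := V) (fun t => f (c t)) _ s :=
    (hf.md.hasMFDerivAt.comp s h1.hasMFDerivAt).hasFDerivAt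
  refine h2.hasDerivAt.congr_deriv ?_
  show mfderiv I 𝓘(ℝ, V) f (c s) (mfderiv 𝓘(ℝ, ℝ) I c s (1 : ℝ)) = _
  rw [← vl_sum (F := F), map_sum]
  exact sum_congr rfl fun a _ => map_smul _ _ _

theorem contDiff_vl (hc : ContMDiff 𝓘(ℝ, ℝ) I ∞ c) (a : ι) : ContDiff ℝ ∞ fun s => vl F c s a := by
  let L : Ext ℝ →L[ℝ] ℝ := LinearMap.toContinuousLinearMap
    { toFun := fun w => Num57.e1 w 1
      map_add' := fun _ _ => Num57.e1_add _ _ _
      map_smul' := fun _ _ => Num57.e1_smul _ _ _ }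
  have e : (fun s => vl F c s a) = fun s => L (Dr59.pm 𝓘(ℝ, ℝ) I c (Num57.th F a) s) :=
    funext fun s => by
      show _ = Num57.e1 _ _
      rw [Dr59.pm_apply, Num57.th, pb_io, Num57.e1_io]
      rfl
  rw [e]
  exact contDiff_iff_contDiffAt.2 fun s => L.contDiff.contDiffAt.comp s
    (Dr59.cAt_model.1 (Dr59.SmAt.pm (hc s) (Num57.smAt_th F a _)))

theorem vl_rel {G : Geo I M ι lam} {G' : Geo I' M' ι' lam'} {O : Set M} {φ : M → M'}
    {U : M → ι' → ι → ℝ} {v : M → CL (Eu lam) (Eu lam')} (g : LG B G B' G' O φ U v) {s : ℝ}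
    (hc : ContMDiffAt 𝓘(ℝ, ℝ) I ∞ c s) (hx : c s ∈ O) (b : ι') :
    vl G'.F (fun t => φ (c t)) s b = ∑ a, U (c s) b a * vl G.F c s a := by
  have h1 : mfderiv 𝓘(ℝ, ℝ) I' (fun t => φ (c t)) s (1 : ℝ)
      = ∑ b', (∑ a, U (c s) b' a * vl G.F c s a) • Num57.ee G'.F (φ (c s)) b' := by
    rw [show (fun t => φ (c t)) = φ ∘ c from rfl,
      mfderiv_comp s (g.rot.md hx) (hc.mdifferentiableAt (by simp))]
    show mfderiv I I' φ (c s) (mfderiv 𝓘(ℝ, ℝ) I c s (1 : ℝ)) = _
    rw [← vl_sum (F := G.F), map_sum]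
    simp only [map_smul, g.rot.fr' (geo_frm g.hG) hx, smul_sum, smul_smul, sum_smul]
    rw [sum_comm]
    exact sum_congr rfl fun _ _ => sum_congr rfl fun _ _ => by rw [mul_comm]; rfl
  rw [vl, h1, Num57.tl_comb]
  simp only [mul_sum, ← mul_assoc]
  rw [sum_comm]
  refine sum_congr rfl fun a _ => ?_
  rw [← sum_mul, g.hG'.P, (g.be _ hx).PU g.hB']

end vel

end Crest.Agent.X212.Cnt93
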